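import Vale.Agent.P014U.Nd.T4
import Vale.Agent.P014U.X4F.En.Rep

/-! # P014U, row T4 -/

set_option linter.all false

open scoped Classical

noncomputable section

namespace Vale.Agent.P014U.Nd

open NumberField
open Vale.Agent.P022 (Qb GQ)
open Vale.Agent.P022E.GW (Ov Fb)
open Vale.Agent.P004F (hq)
open Vale.Agent.P004K (K1)
open P004M.TE (Pt ga al)
open Bx (nu)

variable [Pp] {A B : ℤ} {S : Finset ℕ}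

theorem bg (hD : 4 * (A : ℚ) ^ 3 + 27 * (B : ℚ) ^ 2 ≠ 0) : Bg hD := by
  obtain ⟨S, r, -⟩ := X4F.En.ex_rep hD
  obtain ⟨k, bk⟩ := X4F.En.big hD
  refine ⟨r.irr, fun T hT => ?_⟩
  obtain ⟨u, -, bu, hu⟩ := bk.kum r (X4S.cyc_ep r) (Γ := ⊤) isOpen_univ
    (fun w hw => (r.irr w hw).imp fun x h => ⟨trivial, h⟩) T
    fun a m => ⟨(hT a m).1, fun g _ => (hT a m).2 g⟩
  exact ⟨u, fun k k0 => (bu.pow r k0.ne').ne, hu⟩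

/-- **row T4** -/
theorem t4 (hD : 4 * A ^ 3 + 27 * B ^ 2 ≠ 0) {P : Pt A B} (hP : ∀ g, ga g P = P)
    (nt : ¬ IsOfFinAddOrder P) (sp : ∀ q ∈ S, q.Prime) {Γ : Subgroup GQ}
    (op : IsOpen (Γ : Set GQ)) (nm : Γ.Normal) : ∃ b : ℕ, ∀ (n : ℕ) (F : Finset ℕ), b ≤ n →
      ∃ (l : ℕ) (L : Ideal (𝓞 Qb)) (φ : GQ) (lam : ZMod l → ZMod (pp ^ n)), l ∉ F ∧ l ∉ S ∧
        Ov l L ∧ Fb l L φ ∧ φ ∈ Γ ∧ pp ^ (n + 1) ∣ l - 1 ∧ lam 0 = 0 ∧ Lb A B l lam ∧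
        (∀ q ∈ S, lam q = 0) ∧ (∃ x, x ≠ 0 ∧ lam x = 1) ∧ ¬ (pp : ℤ) ^ b ∣ l + 1 - al A B l ∧
        K1 L ((l + 1 - al A B l) • P) ∧
        ¬ pp ^ b ∣ (lam (nu ((l + 1 - al A B l) • P))).val := t4' hD (bg _) hP nt sp op nm

end Vale.Agent.P014U.Nd
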