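import Vale.Agent.P014U.Nd.Ram
import Vale.Agent.P014U.Sy.Ex

/-!
# P014U, row T4: cocycles in the roots of unity which are unramified outside `S`
-/

set_option linter.all false

noncomputable section

namespace Vale.Agent.P014U.Nd

open NumberField
open Vale.Agent.P022 (Qb GQ)
open Vale.Agent.P027M.S (Inert)
open Vale.Agent.P022E.GW (Ov Fb)
open X4S.Ga (K O)
open X4S.Aq Sy

variable [Pp] {S : Finset ℕ} {n l : ℕ} {g : GQ} {P : Ideal (𝓞 Qb)}

theorem lc_ex {ψ : GQ → K} (c : Continuous ψ) : IsLocallyConstant fun g => ex (ψ g) :=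
  (IsLocallyConstant.iff_eventually_eq _).2 fun g =>
    ((O_open.preimage (c.sub (continuous_const (y := ψ g)))).eventually_mem
      (show ψ g - ψ g ∈ O by simp)).mono fun _ h => ex_eq.2 h

/-- **Kummer theory over `ℚ`** -/
theorem kum {ψ : GQ → K} (lc : IsLocallyConstant fun g => ex (ψ g)) (lev : ∀ g, (pp : K) ^ n * ψ g ∈ O)
    (coc : ∀ g h, ψ g + cy g * ψ h - ψ (g * h) ∈ O) :
    ∃ (y : Qb) (r : ℚ), y ≠ 0 ∧ y ^ pp ^ n = r ∧ ∀ g, g y = ex (ψ g) * y := by
  have fm : ∀ g h, ex (ψ (g * h)) = ex (ψ g) * g (ex (ψ h)) := fun g h => by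
    rw [ex_cy, ← ex_add]
    exact (ex_eq.2 (coc g h)).symm
  have f1 : ex (ψ 1) = 1 := by simpa [ex_ne] using fm 1 1
  let W : Subgroup GQ :=
    { carrier := {v | ex (ψ v) = 1}
      mul_mem' := fun {a b} ha hb => by
        change ex (ψ (a * b)) = 1
        rw [fm, ha, hb, map_one, one_mul]
      one_mem' := f1
      inv_mem' := fun {a} ha => by
        have := fm a⁻¹ a
        rwa [inv_mul_cancel, f1, ha, map_one, mul_one, eq_comm] at this }
  obtain ⟨b, hb⟩ := P022K.GW.Has.h90 (Δ := ⊤) isClosed_univ (c := fun g => Units.mk0 _ (ex_ne (ψ g)))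
    (fun g _ h _ => Units.ext (fm g h)) (W := W) (lc {1}) fun w _ h => Units.ext h
  have e : ∀ g : GQ, g (b : Qb)⁻¹ = ex (ψ g) * (b : Qb)⁻¹ := fun g => by
    have : ex (ψ g) * g (b : Qb) = b := congrArg Units.val (hb g trivial)
    rw [map_inv₀, eq_mul_inv_iff_mul_eq₀ b.ne_zero, inv_mul_eq_iff_eq_mul₀ (by simp), mul_comm, this]
  obtain ⟨r, hr⟩ := P004M.TE.mem_KQ.2 (show ∀ g : GQ, g ((b : Qb)⁻¹ ^ pp ^ n) = _ from fun g => by
    rw [map_pow, e, mul_pow, ex_root.2 (lev g), one_mul])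
  exact ⟨_, r, inv_ne_zero b.ne_zero, hr.symm, e⟩

/-- a cocycle which is unramified outside `S` vanishes on the elements which fix the roots of
the `S`-units -/
theorem uniq (h2 : pp ∈ S) {ψ : GQ → K} (lc : IsLocallyConstant fun g => ex (ψ g))
    (lev : ∀ g, (pp : K) ^ n * ψ g ∈ O) (coc : ∀ g h, ψ g + cy g * ψ h - ψ (g * h) ∈ O)
    (unr : ∀ l ∉ S, ∀ P, Ov l P → ∀ i, Inert P i → ψ i ∈ O) (hg : Fz S n g) : ψ g ∈ O := by
  obtain ⟨y, r, y0, hy, e⟩ := kum lc lev coc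
  have := fix_rat h2 hg y0 hy fun l hl P o i hi => by rw [e, ex_one.2 (unr l hl P o i hi), one_mul]
  rwa [e, mul_eq_right₀ y0, ex_one] at this

end Vale.Agent.P014U.Nd
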