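import Vale.Agent.P014U.Nd.Kc
import Vale.Agent.P014U.Nd.Un

/-!
# P014U, row T4: the value of the cochain at a Frobenius element
-/

set_option linter.all false

open scoped Classical

noncomputable section

namespace Vale.Agent.P014U.Nd

open Matrix NumberField
open Vale.Agent.P022 (Qb GQ)
open Vale.Agent.P027M.S (Inert)
open Vale.Agent.P022E.GW (Ov Fb)
open Vale.Agent.P004S (wp)
open X4S.Ga (K O)
open X4S.Aq
open X4F.Rc (mq mq_eq hn hn_mul O_nat)
open X4M.TE hiding Qb GQ Fb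
open P027M.K Sy

variable [Pp] {A B : ℤ} (hD : 4 * (A : ℚ) ^ 3 + 27 * (B : ℚ) ^ 2 ≠ 0)

theorem rh_det (g : GQ) : (rh hD g).det = cy g := by
  rw [rh_eq, rep_val, ← RingHom.map_det, Ki.det_mt, cy_apply]; rfl

theorem rh_cont (i j : Fin 2) : Continuous fun g => rh hD g i j :=
  continuous_subtype_val.comp (cont_mt hD i j)

theorem co_O (t : Tm (A : ℚ) (B : ℚ)) (i : Fin 2) : co hD t i ∈ O := ((bs hD).repr t i).2

theorem wp_O (s t : Tm (A : ℚ) (B : ℚ)) : wp (co hD s) (co hD t) ∈ O :=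
  co_dt hD s t ▸ (Ki.dt hD s t).2

/-- `φ` bounds `κ` times the square of the Kummer cocycle of `R` -/
structure Pc (S : Finset ℕ) (n : ℕ) (κ : K) (R : Pt A B) (φ : GQ → K) : Prop where
  cont : Continuous φ
  lev : ∀ g, (pp : K) ^ n * φ g ∈ O
  d : ∀ g h, φ g + cy g * φ h - φ (g * h) -
    κ * Ki.wp hD n (ga g R - R) (ga g (ga h R - R)) ∈ O
  unr : ∀ l ∉ S, ∀ P, Ov l P → ∀ i, Inert P i → φ i ∈ O

variable {S : Finset ℕ} {n l : ℕ} {κ : K} {R : Pt A B} {φ φ₀ : GQ → K} {D : ℕ → Pt A B} {g : GQ}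
  {P : Ideal (𝓞 Qb)}

theorem Pc.d' (F : Pc hD S n κ R φ) (κi : κ ∈ O) {s : GQ → Tm (A : ℚ) (B : ℚ)}
    (e : ∀ g, TM.cp n (s g) = ga g R - R) (g h : GQ) : φ g + cy g * φ h - φ (g * h) -
      hn n * κ * wp (co hD (s g)) (rh hD g *ᵥ co hD (s h)) ∈ O := by
  have a := F.d g h
  have b := mq_eq.1 (Ki.wp_cp hD n (s g) (rho _ _ g (s h)))
  rw [cp_rho, e, e, co_dt, co_rho] at b
  exact O_of (add_mem a (O_mul κi b)) (by ring)

theorem Fz.cy (h : Fz S n g) : hn n * (cy g - 1) ∈ O := by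
  have := h (ex (hn n)) (Or.inl (by rw [pow_succ, pow_mul, (ex_prim' n).pow_eq_one, one_pow]))
  rw [ex_cy, ex_eq] at this
  exact O_of this (by ring)

theorem unr_kt (h : Dp D) (o : Ov l P) (hl : ¬ (l : ℤ) ∣ 2 * pp * (4 * A ^ 3 + 27 * B ^ 2)) {i : GQ}
    (hi : Inert P i) : h.kt i = 0 := TM.ext fun r => by
  have := Fact.mk o.1
  obtain ⟨κ, _, _, _, rd, h1, h2, -⟩ := exists_rd hl o.2.1 o.2.2
  exact inj_tors h1 r (TM.pow_smul_cp _ r) (by rw [h.cp, map_sub, h2 i hi, sub_self])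

theorem unr_rh (o : Ov l P) (hl : ¬ (l : ℤ) ∣ 2 * pp * (4 * A ^ 3 + 27 * B ^ 2)) {i : GQ}
    (hi : Inert P i) : rh hD i = 1 := by
  have := Fact.mk o.1
  rw [rh_eq, unr_rep hD hl P o.2.1 o.2.2 i hi, Units.val_one]

theorem O_int (N : ℤ) : (N : K) ∈ O := intCast_mem (PadicInt.subring pp) N

theorem chg (h2 : pp ∈ S) (hS : ∀ l : ℕ, l.Prime → l ∉ S → ¬ (l : ℤ) ∣ 2 * pp * (4 * A ^ 3 + 27 * B ^ 2))
    (h : Dp D) (κi : κ ∈ O) (F₀ : Pc hD S n κ (D n) φ₀) (F : Pc hD S n κ R φ) {N : ℤ}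
    (hR : pp ^ n • R = N • D 0) (hg : Fz S n g) (gR : ga g R = R)
    (hN : (N : K) = 1 - (rh hD g).trace + cy g) : N * φ g - N ^ 2 *
      (hn n * hh (rh hD) (fun g => co hD (h.kt g)) κ (fun g => pp ^ n * φ₀ g) g) ∈ O := by
  obtain ⟨t, ht⟩ := TM.exists_cp (hdiv hD) (r := n) (y := R - N • D n)
    (by rw [nsmul_sub, hR, smul_comm, h.pow, sub_self])
  let s : GQ → Tm (A : ℚ) (B : ℚ) := fun x => (N : ℤ_[pp]) • h.kt x + (rho _ _ x t - t)
  have es : ∀ x, TM.cp n (s x) = ga x R - R := fun x => by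
    simp only [s, Int.cast_smul_eq_zsmul, map_add, map_sub, map_zsmul, cp_rho, h.cp, ht, zsmul_sub]
    abel
  have cs : ∀ x, co hD (s x) = (N : K) • co hD (h.kt x) + (rh hD x *ᵥ co hD t - co hD t) :=
    fun x => by rw [co_add, co_sub, co_smul, co_rho, PadicInt.coe_intCast]
  have ca : ∀ x y, co hD (h.kt (x * y)) = co hD (h.kt x) + rh hD x *ᵥ co hD (h.kt y) :=
    fun x y => by rw [h.mul, co_add, co_rho]
  have i1 : ∀ x, wp (co hD (h.kt x)) (rh hD x *ᵥ co hD t) ∈ O := fun x => by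
    rw [← co_rho]; exact wp_O hD _ _
  have u := uniq (n := n) h2 (ψ := fun x => φ x - N ^ 2 * φ₀ x +
      hn n * κ * (N * wp (co hD (h.kt x)) (rh hD x *ᵥ co hD t) - wp (co hD t) (co hD (s x))))
    (lc_ex (by
      have a := F.cont
      have b := F₀.cont
      have c := h.cont hD
      have d := rh_cont hD
      simp only [cs, wp, mulVec, dotProduct, Fin.sum_univ_two, Pi.add_apply, Pi.sub_apply,
        Pi.smul_apply, smul_eq_mul]
      fun_prop))
    (fun x => O_of (add_mem (sub_mem (F.lev x) (O_mul (O_mul (O_int N) (O_int N)) (F₀.lev x)))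
      (O_mul κi (sub_mem (O_mul (O_int N) (i1 x)) (wp_O hD t (s x))))) (by
        linear_combination (κ * (N * wp (co hD (h.kt x)) (rh hD x *ᵥ co hD t) -
          wp (co hD t) (co hD (s x)))) * hn_mul n))
    (fun x y => O_of (sub_mem (F.d' hD κi es x y)
      (O_mul (O_mul (O_int N) (O_int N)) (F₀.d' hD κi (h.cp n) x y))) (by
        have e1 := wp_mul (rh hD x) (co hD (h.kt y)) (rh hD y *ᵥ co hD t)
        have e2 := wp_mul (rh hD x) (co hD t) (co hD (s y))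
        rw [rh_det] at e1 e2
        simp only [cs, ca, map_mul, ← mulVec_mulVec, mulVec_add, mulVec_sub, mulVec_smul, wp,
          Pi.add_apply, Pi.sub_apply, Pi.smul_apply, smul_eq_mul] at e1 e2 ⊢
        linear_combination (-(hn n * κ * N)) * e1 + hn n * κ * e2))
    (fun l hl P o i hi => O_of (sub_mem (F.unr l hl P o i hi)
      (O_mul (O_mul (O_int N) (O_int N)) (F₀.unr l hl P o i hi))) (by
        have z : co hD (h.kt i) = 0 := by
          rw [unr_kt h o (hS l o.1 hl) hi]; funext j; simp [co]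
        simp only [cs, z, unr_rh hD o (hS l o.1 hl) hi, wp, one_mulVec, sub_self, smul_zero,
          add_zero, Pi.zero_apply]
        ring)) hg
  obtain ⟨z, hz⟩ := (TM.cp_eq_zero_iff (x := s g) (r := n)).1 (by rw [es, gR, sub_self])
  have ez : (N : K) • co hD (h.kt g) = (pp : K) ^ n • co hD z - (rh hD g *ᵥ co hD t - co hD t) := by
    rw [eq_sub_iff_add_eq, ← cs, hz, co_smul]; push_cast; rfl
  have j1 : wp (co hD z) (rh hD g *ᵥ co hD t) ∈ O := by rw [← co_rho]; exact wp_O hD _ _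
  have j2 : wp (co hD z) (rh hD g *ᵥ ((N : K) • co hD (h.kt g))) ∈ O := by
    rw [← PadicInt.coe_intCast, ← co_smul, ← co_rho]; exact wp_O hD _ _
  have j3 : wp (rh hD g *ᵥ co hD t - co hD t) (rh hD g *ᵥ co hD z) ∈ O := by
    rw [← co_rho, ← co_rho, ← co_sub]; exact wp_O hD _ _
  have k1 : N * wp (co hD (h.kt g)) (rh hD g *ᵥ co hD t) =
      pp ^ n * wp (co hD z) (rh hD g *ᵥ co hD t) + wp (co hD t) (rh hD g *ᵥ co hD t) := by
    have : wp ((N : K) • co hD (h.kt g)) (rh hD g *ᵥ co hD t) = _ := congrArg (wp · _) ez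
    simp only [wp, Pi.sub_apply, Pi.smul_apply, smul_eq_mul] at this ⊢
    linear_combination this
  have k2 : N ^ 2 * wp (co hD (h.kt g)) (rh hD g *ᵥ co hD (h.kt g)) =
      pp ^ n * (wp (co hD z) (rh hD g *ᵥ ((N : K) • co hD (h.kt g))) -
        wp (rh hD g *ᵥ co hD t - co hD t) (rh hD g *ᵥ co hD z)) +
        N * wp (co hD t) (rh hD g *ᵥ co hD t) := by
    trans wp ((N : K) • co hD (h.kt g)) (rh hD g *ᵥ ((N : K) • co hD (h.kt g)))
    · simp only [wp, mulVec_smul, Pi.smul_apply, smul_eq_mul]; ring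
    rw [ez, hN, ← rh_det hD g]
    simp only [wp, mulVec, dotProduct, Fin.sum_univ_two, det_fin_two, trace_fin_two,
      Pi.sub_apply, Pi.smul_apply, smul_eq_mul]
    ring
  have k3 : wp (co hD t) (co hD (s g)) = pp ^ n * wp (co hD t) (co hD z) := by
    rw [cs, ez, sub_add_cancel]
    simp only [wp, Pi.smul_apply, smul_eq_mul]; ring
  refine O_of (add_mem (add_mem (sub_mem (O_mul (O_int N) u)
    (O_mul κi (O_mul (O_int N) (sub_mem j1 (wp_O hD t z))))) (O_mul κi (sub_mem j2 j3)))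
    (O_mul (O_mul (O_int N) (O_int N)) (O_mul hg.cy (F₀.lev g)))) ?_
  simp only [hh]
  linear_combination hn n * κ * k2 - hn n * κ * N * k1 + hn n * κ * N * k3 + N ^ 2 * φ₀ g * hN +
    (κ * (wp (co hD z) (rh hD g *ᵥ ((N : K) • co hD (h.kt g))) -
        wp (rh hD g *ᵥ co hD t - co hD t) (rh hD g *ᵥ co hD z)) -
      κ * N * (wp (co hD z) (rh hD g *ᵥ co hD t) - wp (co hD t) (co hD z)) -
      N ^ 2 * (1 - (rh hD g).trace + cy g) * φ₀ g) * hn_mul n

end Vale.Agent.P014U.Nd
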