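import Vale.Agent.P014T.Nd.Core
import Vale.Agent.P014U.X4F.Rec.Kum

/-!
# P014U, row T4: passage to the limit over the levels
-/

set_option linter.all false

noncomputable section

namespace Vale.Agent.P014U.Nd

open Matrix Filter Topology
open Vale.Agent.P004S (wp)
open X4S.Ga (K O mem_O)
open X4S.Aq
open X4F.Rc (hn hn_mul)

export Vale.Agent.P014T.Nd (Mx hh core wp_mul cay)

variable [Pp]

theorem ex_lim (U : Ultrafilter ℕ) {x : ℕ → K} (h : ∀ n, x n ∈ O) : ∃ y, Tendsto x U (𝓝 y) := by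
  obtain ⟨y, -, hy⟩ := (isCompact_closedBall (0 : K) 1).ultrafilter_le_nhds (U.map x)
    (le_principal_iff.2 (mem_map.2 (Eventually.of_forall fun n => by simpa [mem_O] using h n)))
  exact ⟨y, hy⟩

theorem n2 : ‖(pp : K)‖ = (pp : ℝ)⁻¹ := Padic.norm_p

theorem ip0 : (0 : ℝ) < (pp : ℝ)⁻¹ := inv_pos.2 (one_pos.trans pr_one)

theorem ip1 : (pp : ℝ)⁻¹ < 1 := inv_lt_one_of_one_lt₀ pr_one

theorem hn_iff {n : ℕ} {x : K} : hn n * x ∈ O ↔ ‖x‖ ≤ (pp : ℝ)⁻¹ ^ n := by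
  rw [mem_O, hn, norm_mul, norm_inv, norm_pow, n2, inv_mul_le_iff₀ (pow_pos ip0 n), mul_one]

theorem to_zero {x : ℕ → K} (h : ∀ n, hn n * x n ∈ O) : Tendsto x atTop (𝓝 0) :=
  squeeze_zero_norm (fun n => hn_iff.1 (h n))
    (tendsto_pow_atTop_nhds_zero_of_lt_one ip0.le ip1)

theorem lim {G : Type} [Group G] (ρ : G →* Mx K) (H : Subgroup G) [H.Normal]
    (irr : ∀ w, w ≠ 0 → ∃ x, ∀ s : K, ρ x *ᵥ w ≠ s • w) (hd : ∀ g ∈ H, (ρ g).det = 1) {u : G}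
    (hu : u ∈ H) (ht : ∀ k, 0 < k → (ρ (u ^ k)).trace ≠ 2) (a : G → Fin 2 → K)
    (ha : ∀ g h, a (g * h) = a g + ρ g *ᵥ a h) (na : ¬ ∃ v, ∀ g, a g = ρ g *ᵥ v - v) (κ : ℕ → K)
    (κi : ∀ n, κ n ∈ O) {j : ℕ} (κj : ∀ n, hn j * κ n ∉ O) (c : ℕ → G → K) (ci : ∀ n g, c n g ∈ O)
    (hc : ∀ n, ∀ g ∈ H, ∀ h ∈ H,
      hn n * (c n g + c n h - c n (g * h) - κ n * wp (a g) (ρ g *ᵥ a h)) ∈ O) :
    ∃ g ∈ H, ∃ b : ℕ, hn b * (2 - (ρ g).trace) ∉ O ∧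
      ∀ n₀, ∃ n, n₀ ≤ n ∧ hn b * hh ρ a (κ n) (c n) g ∉ O := by
  let U := hyperfilter ℕ
  have le : (U : Filter ℕ) ≤ atTop := Nat.hyperfilter_le_atTop
  obtain ⟨k, hk⟩ := ex_lim U κi
  choose d hd' using fun g => ex_lim U fun n => ci n g
  have k0 : k ≠ 0 := fun e => by
    obtain ⟨n, h⟩ := ((hk.const_mul (hn j)).eventually_mem
      (O_open.mem_nhds (by simp [e]))).exists
    exact κj n h
  obtain ⟨g, hg, t, h⟩ := core ρ H irr hd hu ht a ha na k0 d fun g hg h hh => sub_eq_zero.1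
    (tendsto_nhds_unique ((((hd' g).add (hd' h)).sub (hd' (g * h))).sub (hk.mul_const _))
      ((to_zero fun n => hc n g hg h hh).mono_left le))
  obtain ⟨b, hb⟩ := exists_pow_lt_of_lt_one
    (lt_min (norm_pos_iff.2 (sub_ne_zero.2 t.symm)) (norm_pos_iff.2 h)) ip1
  rw [lt_min_iff] at hb
  refine ⟨g, hg, b, fun e => (hn_iff.1 e).not_gt hb.1, fun n₀ => ?_⟩
  have l : Tendsto (fun n => hh ρ a (κ n) (c n) g) U (𝓝 (hh ρ a k d g)) :=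
    ((hd' g).const_mul _).sub (hk.mul_const _)
  obtain ⟨n, h1, h2⟩ := (((eventually_ge_atTop n₀).filter_mono le).and
    (l.norm.eventually (lt_mem_nhds hb.2))).exists
  exact ⟨n, h1, fun e => (hn_iff.1 e).not_gt h2⟩

end Vale.Agent.P014U.Nd
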