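import Vale.Agent.P014U.Ki.Wp
import Vale.Agent.P014U.Nd.Lim
import Vale.Agent.P014T.Ht.Wmw

/-!
# P014U, row T4: the Kummer cocycle of a rational point
-/

set_option linter.all false

open scoped Classical

noncomputable section

namespace Vale.Agent.P014U.Nd

open Matrix
open Vale.Agent.P022 (Qb GQ)
open X4S.Ga (K O)
open X4S.Aq (pr_one)
open X4M.TE hiding Qb GQ
open P027M.K P014T

variable [Pp] {A B : ℤ} (hD : 4 * (A : ℚ) ^ 3 + 27 * (B : ℚ) ^ 2 ≠ 0)

/-- the matrices -/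
def rh : GQ →* Mx K := (Units.coeHom _).comp (rep hD)

theorem rh_eq (g : GQ) : rh hD g = (rep hD g : Mx K) := rfl

theorem rh_apply (g : GQ) (i j : Fin 2) : rh hD g i j = (mt hD g i j : ℤ_[pp]) := rfl

theorem ex_int (v : Fin 2 → K) : ∃ (k : ℕ) (w : Fin 2 → ℤ_[pp]), ∀ i, (w i : K) = pp ^ k * v i := by
  obtain ⟨k, hk⟩ := pow_unbounded_of_one_lt ‖v‖ pr_one
  refine ⟨k, fun i => ⟨pp ^ k * v i, ?_⟩, fun _ => rfl⟩
  rw [norm_mul, norm_pow, n2, inv_pow, inv_mul_le_iff₀ (pow_pos (one_pos.trans pr_one) k), mul_one]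
  exact (norm_le_pi_norm v i).trans hk.le

/-- a system of division points of a rational point -/
structure Dp (D : ℕ → Pt A B) : Prop where
  fix : ∀ g, ga g (D 0) = D 0
  suc : ∀ n, pp • D (n + 1) = D n

include hD in
theorem ex_dp {P : Pt A B} (h : ∀ g, ga g P = P) : ∃ D, Dp D ∧ D 0 = P := by
  choose f hf using fun y : Pt A B => mul_surj two_ne_zero hD pp_ne y
  exact ⟨fun n => f^[n] P, ⟨h, fun n => by rw [Function.iterate_succ_apply', hf]⟩, rfl⟩

variable {D : ℕ → Pt A B}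

theorem Dp.pow (h : Dp D) (n : ℕ) : pp ^ n • D n = D 0 := by
  induction n with
  | zero => simp
  | succ n ih => rw [pow_succ, mul_smul, h.suc, ih]

/-- the cocycle in the Tate module -/
def Dp.kt (h : Dp D) (g : GQ) : Tm (A : ℚ) (B : ℚ) :=
  TM.mk (fun n => ga g (D n) - D n) (by rw [h.fix, sub_self]) fun n => by
    rw [nsmul_sub, ← map_nsmul, h.suc]

theorem Dp.cp (h : Dp D) (n : ℕ) (g : GQ) : TM.cp n (h.kt g) = ga g (D n) - D n := rfl

theorem Dp.mul (h : Dp D) (g j : GQ) : h.kt (g * j) = h.kt g + rho _ _ g (h.kt j) :=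
  TM.ext fun n => by rw [map_add, cp_rho, h.cp, h.cp, h.cp, ga_mul, map_sub]; abel

/-- coordinates -/
def co (t : Tm (A : ℚ) (B : ℚ)) : Fin 2 → K := fun i => ((bs hD).repr t i : ℤ_[pp])

theorem co_add (s t : Tm (A : ℚ) (B : ℚ)) : co hD (s + t) = co hD s + co hD t :=
  funext fun i => by simp [co]

theorem co_sub (s t : Tm (A : ℚ) (B : ℚ)) : co hD (s - t) = co hD s - co hD t :=
  funext fun i => by simp [co]

theorem co_smul (c : ℤ_[pp]) (t : Tm (A : ℚ) (B : ℚ)) : co hD (c • t) = (c : K) • co hD t :=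
  funext fun i => by simp [co]

theorem co_inj : Function.Injective (co hD) := fun s t e =>
  (bs hD).repr.injective (Finsupp.ext fun i => Subtype.ext (congrFun e i))

theorem co_rho (g : GQ) (t : Tm (A : ℚ) (B : ℚ)) :
    co hD (rho _ _ g t) = rh hD g *ᵥ co hD t := funext fun i => by
  have e := LinearMap.toMatrix_mulVec_repr (bs hD) (bs hD) (rho _ _ g) t
  simp only [co]
  rw [← e]
  change (((mt hD g *ᵥ _) i : ℤ_[pp]) : K) = _
  simp only [mulVec, dotProduct, Fin.sum_univ_two, rh_apply, PadicInt.coe_add,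
    PadicInt.coe_mul, co]

theorem co_dt (s t : Tm (A : ℚ) (B : ℚ)) :
    (Ki.dt hD s t : K) = P004S.wp (co hD s) (co hD t) := by
  simp only [Ki.dt, P004S.wp, co, PadicInt.coe_sub, PadicInt.coe_mul]

theorem Dp.cont (h : Dp D) (i : Fin 2) : Continuous fun g => co hD (h.kt g) i := by
  suffices e : Continuous fun g => (bs hD).repr (h.kt g) i from continuous_subtype_val.comp e
  refine continuous_iff_continuousAt.2 fun g₀ => Metric.continuousAt_iff'.2 fun ε hε => ?_
  obtain ⟨n, hn⟩ := PadicInt.exists_pow_neg_lt pp hε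
  filter_upwards [ev_ga g₀ (D n)] with g hg
  obtain ⟨y, hy⟩ := (TM.cp_eq_zero_iff (x := h.kt g - h.kt g₀) (r := n)).1
    (by rw [map_sub, h.cp, h.cp, hg, sub_self])
  rw [dist_eq_norm, ← Finsupp.sub_apply, ← map_sub, hy, map_smul,
    Finsupp.smul_apply, smul_eq_mul, norm_mul, PadicInt.norm_p_pow]
  exact (mul_le_of_le_one_right (by positivity) (PadicInt.norm_le_one _)).trans_lt hn

/-- the class of a point of infinite order is not zero -/
theorem Dp.ncob (h : Dp D) (nt : ¬ IsOfFinAddOrder (D 0)) :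
    ¬ ∃ v, ∀ g, co hD (h.kt g) = rh hD g *ᵥ v - v := by
  rintro ⟨v, hv⟩
  obtain ⟨k, w, hw⟩ := ex_int v
  obtain ⟨t, ht⟩ : ∃ t, co hD t = (pp : K) ^ k • v := ⟨(bs hD).equivFun.symm w, funext fun i => by
    simp only [co]
    rw [← Module.Basis.equivFun_apply, LinearEquiv.apply_symm_apply, hw]; rfl⟩
  have e : ∀ g, (pp : ℤ_[pp]) ^ k • h.kt g = rho _ _ g t - t := fun g => co_inj hD (by
    rw [co_smul, co_sub, co_rho, ht, hv, mulVec_smul, smul_sub]
    push_cast; rfl)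
  have := Wm.finite (A := A) (B := B) (Γ := ⊤) (by exact_mod_cast hD) isOpen_univ
  let x : Wm.Fx A B ⊤ := ⟨pp ^ k • D 0, fun g _ => by rw [map_nsmul, h.fix]⟩
  obtain ⟨r, hr⟩ := (Ideal.mem_iInf_smul_pow_eq_bot_iff (Ideal.span {(pp : ℤ)}) x).1
    (Submodule.mem_iInf _ |>.2 fun n => by
      have e' := fun g => congrArg (TM.cp n) (e g)
      simp only [TM.cp_pow_smul, map_sub, cp_rho, h.cp] at e'
      have : x = (pp : ℤ) ^ n • (⟨pp ^ k • D n - TM.cp n t, fun g _ => by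
          rw [map_sub, map_nsmul, ← sub_eq_zero, sub_sub_sub_comm, ← nsmul_sub, e', sub_self]⟩ :
          Wm.Fx A B ⊤) := Subtype.ext (by
        change pp ^ k • D 0 = (pp : ℤ) ^ n • (pp ^ k • D n - TM.cp n t)
        rw [← h.pow n, show (pp : ℤ) ^ n = ((pp ^ n : ℕ) : ℤ) by simp, natCast_zsmul, nsmul_sub,
          TM.pow_smul_cp, sub_zero, smul_comm])
      rw [this]
      exact Submodule.smul_mem_smul (Ideal.pow_mem_pow (Ideal.mem_span_singleton_self _) n) trivial)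
  obtain ⟨c, hc⟩ := Ideal.mem_span_singleton'.1 r.2
  have hr' : (r : ℤ) • pp ^ k • D 0 = pp ^ k • D 0 := congrArg Subtype.val hr
  refine nt (isOfFinAddOrder_iff_zsmul_eq_zero.2 ⟨(r - 1) * (pp ^ k : ℕ),
    mul_ne_zero (fun e => pp_prime.not_dvd_one (Int.natCast_dvd_natCast.1
      ⟨c, by push_cast; linear_combination -hc - e⟩)) (Int.natCast_ne_zero.2 (pow_ne_zero k pp_ne)), ?_⟩)
  rw [mul_smul, natCast_zsmul, sub_smul, hr', one_smul, sub_self]

end Vale.Agent.P014U.Nd
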