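import Vale.Agent.P014U.Base
import Vale.Agent.P014T.Nd.Un

/-!
# P014U, row T4: roots which are unramified outside `S`
-/

set_option linter.all false

noncomputable section

namespace Vale.Agent.P014U.Nd

open NumberField
open Vale.Agent.P022 Vale.Agent.P022.C Vale.Agent.P022.H916
open Vale.Agent.P027M.S (Pr Inert)
open Vale.Agent.P027M.S.Loc (jQ mem_GK belowQ ordvQ)
open Vale.Agent.P027M.S.Cls (ordv_pow)
open Vale.Agent.P022E.GW (Ov Fb)
open Vale.Agent.P004F.Rc (int_mem)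

export Vale.Agent.P014T.Nd (Ur)

variable {S : Finset ℕ} {n m l : ℕ} {g : GQ} {P : Ideal (𝓞 Qb)}

/-- the criterion of Euler for any exponent prime to `l` -/
theorem eulm (h : Ov l P) {q : ℕ} (hl : ¬ l ∣ q) {β : Qb} {b m : ℕ} (hb : β ^ q = b)
    (nd : ¬ l ∣ b) {g : GQ} (hg : ∀ x : 𝓞 Qb, g • x - x ^ (q * m + 1) ∈ P) :
    g β = β ↔ (b : ZMod l) ^ m = 1 := by
  have q0 : 0 < q := Nat.pos_of_ne_zero fun e => hl (e ▸ dvd_zero _)
  have b0 : (b : Qb) ≠ 0 := Nat.cast_ne_zero.2 fun e => nd (e ▸ dvd_zero _)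
  have β0 : β ≠ 0 := fun e => b0 (by rw [← hb, e, zero_pow q0.ne'])
  have hη : (g β / β) ^ q = 1 := by rw [div_pow, ← map_pow, hb, map_natCast, div_self b0]
  let y : 𝓞 Qb := ⟨β, IsIntegral.of_pow q0 (by rw [hb]; exact (b : 𝓞 Qb).2)⟩
  let η : 𝓞 Qb := ⟨g β / β, IsIntegral.of_pow q0 (by rw [hη]; exact isIntegral_one)⟩
  have e1 : y ^ q = b := RingOfIntegers.ext hb
  have e2 : g • y = η * y := RingOfIntegers.ext (div_mul_cancel₀ _ β0).symm
  have hy : y ∉ P := fun k => nd (Int.natCast_dvd_natCast.1 ((int_mem h b).1 (by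
    rw [Int.cast_natCast, ← e1]; exact Ideal.pow_mem_of_mem P k _ q0)))
  have e3 : η - b ^ m ∈ P := (h.2.1.mem_or_mem (x := η - b ^ m) (y := y) (by
    have := hg y
    rwa [e2, pow_succ, pow_mul, e1, ← sub_mul] at this)).resolve_right hy
  have e4 : (b : ZMod l) ^ m = 1 ↔ (b : 𝓞 Qb) ^ m - 1 ∈ P := by
    rw [← sub_eq_zero, show (b : 𝓞 Qb) ^ m - 1 = ((b ^ m - 1 : ℤ) : 𝓞 Qb) by push_cast; rfl,
      int_mem h, ← ZMod.intCast_zmod_eq_zero_iff_dvd]
    push_cast; rfl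
  rw [e4, ← div_eq_one_iff_eq β0]
  refine ⟨fun e => ?_, fun e => congrArg Subtype.val (P022E.GW.Unr.root_inj h.2.1 (m := q)
    (fun k => hl (Int.natCast_dvd_natCast.1 ((int_mem h q).1 (by rwa [Int.cast_natCast]))))
    (x := η) (RingOfIntegers.ext hη) (one_pow _) (by simpa using add_mem e3 e))⟩
  rw [show η = 1 from RingOfIntegers.ext e] at e3
  simpa using neg_mem e3

/-- an unramified root has an integral valuation -/
theorem ramm (o : Ov l P) {q : ℕ} (hl : ¬ l ∣ q) {y : Qb} {k z : ℕ} (hy : y ^ q = (l ^ k * z : ℕ))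
    (nd : ¬ l ∣ z) (h : ∀ i, Inert P i → i y = y) : q ∣ k := by
  obtain ⟨pl, hP, hq⟩ := id o
  have := Fact.mk pl
  have z0 : z ≠ 0 := fun e => nd (e ▸ dvd_zero _)
  have c0 : l ^ k * z ≠ 0 := mul_ne_zero (pow_ne_zero _ pl.ne_zero) z0
  have q0 : q ≠ 0 := fun e => hl (e ▸ dvd_zero _)
  have y0 : y ≠ 0 := fun e => Nat.cast_ne_zero.2 c0 (by rw [← hy, e, zero_pow q0])
  let v : Pr ℚ := ⟨below jQ P, Ideal.IsPrime.comap _, by
    rw [belowQ hP pl hq, Ne, Ideal.span_singleton_eq_bot]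
    exact_mod_cast pl.ne_zero⟩
  have e := ordvQ v pl (belowQ hP pl hq) (c := (l ^ k * z : ℕ)) (Int.natCast_ne_zero.2 c0)
  rw [padicValInt.of_nat, padicValNat.mul (pow_ne_zero _ pl.ne_zero) z0, padicValNat.prime_pow,
    padicValNat.eq_zero_of_not_dvd nd, add_zero, Int.cast_natCast] at e
  obtain ⟨M, _, _, _, _, jM, ρ, D, hM, hker⟩ := exists_fld jQ (MulAction.stabilizer GQ y).normalCore
    (P022D.Sel.opn_core _ (P022E.GW.Kc.stab_open y)) (fun g _ => mem_GK g)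
    fun g _ u hu => (Subgroup.normalCore_normal _).conj_mem u hu g
  obtain ⟨b', hb'⟩ : ∃ b', jM b' = y := fixed jM fun g =>
    (MulAction.stabilizer GQ y).normalCore_le (hM ▸ g.2)
  have hne : below jM P ≠ ⊥ := fun h0 => v.ne_bot (by
    change below jQ P = ⊥
    rw [← D.below_comap P, h0]
    exact Ideal.comap_bot_of_injective _ (FaithfulSMul.algebraMap_injective _ _))
  let v' : Pr M := ⟨below jM P, Ideal.IsPrime.comap _, hne⟩
  have hin : ∀ g : GK jQ, (∀ x : 𝓞 Qb, (g : GQ) • x - x ∈ P) → ρ g = 1 := fun g hg =>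
    (hker g).2 fun t => by
      have a : (t⁻¹ y / y) ^ q = (1 : ℕ) := by
        rw [div_pow, ← map_pow, hy, map_natCast, div_self (Nat.cast_ne_zero.2 c0), Nat.cast_one]
      have b := (eulm o hl a pl.not_dvd_one (m := 0) (g := g) fun x => by simpa using hg x).2
        (pow_zero _)
      rw [map_div₀, h g hg, div_left_inj' y0] at b
      change (t * g * t⁻¹) y = y
      rw [AlgEquiv.mul_apply, AlgEquiv.mul_apply, b, ← AlgEquiv.mul_apply, mul_inv_cancel]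
      rfl
  have key := H269.UNRV ℚ M v v' (D.below_comap P) (fun g hg => D.inertia_eq_bot hP hin hg)
    (l ^ k * z : ℕ)
  have b0 : b' ≠ 0 := fun e => y0 (by rw [← hb', e, map_zero])
  rw [e, show algebraMap ℚ M (l ^ k * z : ℕ) = b' ^ q from jM.injective (by
    rw [map_pow, hb', hy, map_natCast, map_natCast]), ordv_pow v' b0] at key
  exact Int.natCast_dvd_natCast.1 ⟨_, key.symm⟩

variable [Pp]

/-- `g` fixes the roots of order `pp ^ n` of the elements of `S` -/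
def Fz (S : Finset ℕ) (n : ℕ) (g : GQ) : Prop :=
  ∀ y : Qb, (y ^ pp ^ (n + 1) = 1 ∨ ∃ v ∈ S, y ^ pp ^ n = v) → g y = y

theorem nd_pw (hl : l.Prime) (h2 : l ≠ pp) (n : ℕ) : ¬ l ∣ pp ^ n := fun d =>
  h2 ((Nat.prime_dvd_prime_iff_eq hl pp_prime).1 (hl.dvd_of_dvd_pow d))

theorem pw_ne (n : ℕ) : pp ^ n ≠ 0 := pow_ne_zero n pp_ne

theorem unr_root (o : Ov l P) (h2 : l ≠ pp) {β : Qb} {b : ℕ} (hb : β ^ pp ^ n = b) (nd : ¬ l ∣ b)
    {i : GQ} (hi : Inert P i) : i β = β :=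
  (eulm o (nd_pw o.1 h2 n) hb nd (m := 0) fun x => by simpa using hi x).2 (pow_zero _)

theorem ex_rt (n : ℕ) (b : Qb) : ∃ β : Qb, β ^ pp ^ n = b :=
  IsAlgClosed.exists_pow_nat_eq b (pow_pos pp_pos n)

theorem ram (o : Ov l P) (h2 : l ≠ pp) {y : Qb} {k z : ℕ} (hy : y ^ pp ^ n = (l ^ k * z : ℕ))
    (nd : ¬ l ∣ z) (h : ∀ i, Inert P i → i y = y) : pp ^ n ∣ k :=
  ramm o (nd_pw o.1 h2 n) hy nd h

theorem fix_nat (h2 : pp ∈ S) (hg : Fz S n g) (z : ℕ) (z0 : z ≠ 0) (y : Qb) (hy : y ^ pp ^ n = z)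
    (u : Ur S y) : g y = y := by
  induction z using Nat.strong_induction_on generalizing y with
  | _ z ih =>
  by_cases z1 : z = 1
  · exact hg y (Or.inl (by rw [pow_succ, pow_mul, hy, z1]; simp))
  obtain ⟨l, hl, d⟩ := Nat.exists_prime_and_dvd z1
  obtain ⟨k, z', nd, rfl⟩ := Nat.exists_eq_pow_mul_and_not_dvd z0 l hl.ne_one
  have k0 : k ≠ 0 := fun e => nd (by simpa [e] using d)
  have z'0 : z' ≠ 0 := right_ne_zero_of_mul z0
  have lt : z' < l ^ k * z' :=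
    lt_mul_of_one_lt_left (Nat.pos_of_ne_zero z'0) (Nat.one_lt_pow k0 hl.one_lt)
  have l0 : (l : Qb) ≠ 0 := Nat.cast_ne_zero.2 hl.ne_zero
  obtain ⟨γ, γ0, e, a, b⟩ : ∃ γ : Qb, γ ≠ 0 ∧ γ ^ pp ^ n = l ^ k ∧ g γ = γ ∧ Ur S γ := by
    by_cases m : l ∈ S
    · obtain ⟨β, hβ⟩ := ex_rt n l
      refine ⟨β ^ k, pow_ne_zero _ fun e => l0 (by rw [← hβ, e, zero_pow (pw_ne n)]),
        by rw [← pow_mul, mul_comm, pow_mul, hβ], by rw [map_pow, hg β (Or.inr ⟨l, m, hβ⟩)],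
        fun q hq P o i hi => ?_⟩
      rw [map_pow, unr_root o (fun e => hq (e ▸ h2)) hβ
        (fun c => hq ((Nat.prime_dvd_prime_iff_eq o.1 hl).1 c ▸ m)) hi]
    · obtain ⟨P, hP⟩ := P022.H916.exists_prime hl
      obtain ⟨j, rfl⟩ := ram (P := P) ⟨hl, hP⟩ (fun e => m (e ▸ h2)) hy nd (u l m P ⟨hl, hP⟩)
      exact ⟨l ^ j, pow_ne_zero _ l0, by rw [← pow_mul, mul_comm], by simp, fun _ _ _ _ _ _ => by simp⟩
  have := ih z' lt z'0 (y / γ) (by rw [div_pow, e, hy]; push_cast; field_simp)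
    fun q hq P o i hi => by rw [map_div₀, u q hq P o i hi, b q hq P o i hi]
  rwa [map_div₀, a, div_left_inj' γ0] at this

theorem fix_rat (h2 : pp ∈ S) (hg : Fz S n g) {y : Qb} (y0 : y ≠ 0) {r : ℚ} (hy : y ^ pp ^ n = r)
    (u : Ur S y) : g y = y := by
  obtain ⟨ω, ω0, hω⟩ : ∃ ω : ℤ, (ω : Qb) ≠ 0 ∧ (ω : Qb) ^ pp ^ n * r.num = r.num.natAbs := by
    rcases Int.natAbs_eq r.num with e | e
    · exact ⟨1, by simp, by rw [Int.cast_one, one_pow, one_mul, ← Int.cast_natCast, ← e]⟩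
    · exact ⟨-1, by simp, by
        rw [Int.cast_neg, Int.cast_one, pp_odd.pow.neg_one_pow, ← Int.cast_natCast,
          ← neg_eq_iff_eq_neg.2 e]
        push_cast
        ring⟩
  have d0 : (r.den : Qb) ≠ 0 := Nat.cast_ne_zero.2 r.den_nz
  have r0 : r.num ≠ 0 := Rat.num_ne_zero.2 fun e => pow_ne_zero _ y0 (by rw [hy, e, Rat.cast_zero])
  obtain ⟨m, hm⟩ : ∃ m, pp ^ n = m + 1 := Nat.exists_eq_succ_of_ne_zero (pw_ne n)
  have := fix_nat h2 hg (r.num.natAbs * r.den ^ m)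
    (mul_ne_zero (Int.natAbs_ne_zero.2 r0) (pow_ne_zero _ r.den_nz)) (ω * y * r.den) (by
      rw [mul_pow, mul_pow, hy, Nat.cast_mul, ← hω, Rat.cast_def, hm, pow_succ (r.den : Qb)]
      push_cast
      field_simp) fun q hq P o i hi => by
      rw [map_mul, map_mul, u q hq P o i hi, map_natCast, map_intCast]
  rw [map_mul, map_mul, map_natCast, map_intCast] at this
  exact mul_left_cancel₀ ω0 (mul_right_cancel₀ d0 this)

theorem Fz.mono (h : Fz S n g) (e : m ≤ n) : Fz S m g := fun y hy => by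
  obtain ⟨k, rfl⟩ := Nat.exists_eq_add_of_le' e
  obtain ⟨z, rfl⟩ := ex_rt k y
  rw [map_pow, h z]
  rwa [← pow_mul, ← pow_mul, ← pow_add, ← pow_add, ← add_assoc] at hy

theorem fz_open (S : Finset ℕ) (n : ℕ) : IsOpen {g | Fz S n g} := by
  classical
  have f : ∀ (k : ℕ) (c : Qb), {y : Qb | y ^ pp ^ k = c}.Finite := fun k c =>
    (Polynomial.nthRoots (pp ^ k) c).toFinset.finite_toSet.subset fun y hy => by
      simpa [Polynomial.mem_nthRoots (pow_pos pp_pos k)] using hy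
  have := ((f (n + 1) 1).union (S.finite_toSet.biUnion fun v _ => f n v)).isOpen_biInter
    fun y _ => P004M.TE.open_fix 1 y
  refine (congrArg IsOpen (Set.ext fun g => ?_)).mp this
  simp [Fz]

/-- the elements of `Γ` which fix all the roots -/
def Hs (S : Finset ℕ) (Γ : Subgroup GQ) : Subgroup GQ where
  carrier := {g | g ∈ Γ ∧ ∀ n, Fz S n g}
  mul_mem' {a b} ha hb := ⟨mul_mem ha.1 hb.1, fun n y hy => by
    rw [AlgEquiv.mul_apply, hb.2 n y hy, ha.2 n y hy]⟩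
  one_mem' := ⟨one_mem _, fun _ _ _ => rfl⟩
  inv_mem' {a} ha := ⟨inv_mem ha.1, fun n y hy => by
    conv_lhs => rw [← ha.2 n y hy]
    exact a.symm_apply_apply y⟩

theorem hs_normal (S : Finset ℕ) (Γ : Subgroup GQ) [h : Γ.Normal] : (Hs S Γ).Normal :=
  ⟨fun a ha x => ⟨h.conj_mem a ha.1 x, fun n y hy => by
    rw [AlgEquiv.mul_apply, AlgEquiv.mul_apply, ha.2 n _ (hy.imp
      (fun e => by rw [← map_pow, e, map_one])
      (Exists.imp fun v e => ⟨e.1, by rw [← map_pow, e.2, map_natCast]⟩))]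
    exact x.apply_symm_apply y⟩⟩

theorem Fz.dvd (h : Fz S n g) (o : Ov l P) (l2 : l ≠ pp) (f : Fb l P g) :
    pp ^ (n + 1) ∣ l - 1 := by
  have : NeZero (pp ^ (n + 1)) := ⟨pw_ne _⟩
  obtain ⟨ζ, z⟩ := HasEnoughRootsOfUnity.exists_primitiveRoot Qb (pp ^ (n + 1))
  let y : 𝓞 Qb := ⟨ζ, z.isIntegral (pow_pos pp_pos _)⟩
  have y1 : y ^ pp ^ (n + 1) = 1 := RingOfIntegers.ext z.pow_eq_one
  have a := f y
  rw [show g • y = y from RingOfIntegers.ext (h ζ (Or.inl z.pow_eq_one))] at a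
  have b : ζ = ζ ^ l := congrArg Subtype.val (P022E.GW.Unr.root_inj o.2.1
    (fun k => nd_pw o.1 l2 (n + 1) (Int.natCast_dvd_natCast.1 ((int_mem o _).1
      (by rwa [Int.cast_natCast])))) y1 (by rw [pow_right_comm, y1, one_pow]) a)
  refine z.dvd_of_pow_eq_one _ (mul_left_cancel₀ (z.ne_zero (pw_ne _)) ?_)
  rw [← pow_succ', Nat.sub_add_cancel o.1.one_le, mul_one, ← b]

theorem eul' (o : Ov l P) (l2 : l ≠ pp) (f : Fb l P g) (d : pp ^ n ∣ l - 1) {β : Qb} {b : ℕ}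
    (hb : β ^ pp ^ n = b) (nd : ¬ l ∣ b) : g β = β ↔ (b : ZMod l) ^ ((l - 1) / pp ^ n) = 1 :=
  eulm o (nd_pw o.1 l2 n) hb nd fun x => by
    rw [Nat.mul_div_cancel' d, Nat.sub_add_cancel o.1.one_le]
    exact f x

end Vale.Agent.P014U.Nd
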